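import Vale.Agent.P050.Lattice

/-!
Sidorenko inequality for targets that are monotone on a finite distributive lattice.
-/

open Vale.Agent.P050

namespace Vale.Agent.Results.P050.LatticeMonotoneTargets

theorem result :
    (∀ (L : Type) [DistribLattice L] [Fintype L] [Nonempty L] (r : L → L → Prop),
      (∀ x x' y y', x ≤ x' → y ≤ y' → r x y → r x' y') →
      ∀ (V : Type) [Fintype V] [DecidableEq V] (H : SimpleGraph V), H.Colorable 2 →
        Nat.card (L ⊕ L) ^ Fintype.card V * (2 * (bip r).edgeSet.ncard) ^ H.edgeSet.ncard ≤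
          Nat.card (H →g bip r) * Nat.card (L ⊕ L) ^ (2 * H.edgeSet.ncard)) ∧
    ∀ (L : Type) [DistribLattice L] [Fintype L] [Nonempty L] (h : L → L → ℝ),
      (∀ x y, 0 ≤ h x y) → (∀ x x' y y', x ≤ x' → y ≤ y' → h x y ≤ h x' y') →
      ∀ (V : Type) [Fintype V] [DecidableEq V] (E : Finset (V × V)), (∀ e ∈ E, e.1 ≠ e.2) →
        (Fintype.card L : ℝ) ^ Fintype.card V * (∑ x, ∑ y, h x y) ^ E.card ≤
          (∑ z : V → L, ∏ e ∈ E, h (z e.1) (z e.2)) * (Fintype.card L : ℝ) ^ (2 * E.card) :=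
  ⟨fun L _ _ _ r hr V _ _ H hH => sidorenko_bip r hr H hH,
    fun L _ _ _ h h0 hm V _ _ E hE => core E Prod.fst Prod.snd hE h h0 hm⟩

end Vale.Agent.Results.P050.LatticeMonotoneTargets
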